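import Mathlib
import Vale.Agent.P249.Khintchine
import Vale.Agent.P249.Poincare
import Vale.Agent.P249.LowerCore

/-! Super-logarithmic lower bound for dimension reduction in `L_p`, `p > 2`. -/

namespace Vale.Agent.P249

open Finset

/-- The embedding of Euclidean space into `ℓ_p` by normalized Rademacher sums. -/
noncomputable def radEmb (p : ℝ) (m : ℕ) (a : Fin m → ℝ) : (Fin m → Bool) → ℝ :=
  fun e => ((((2:ℝ) ^ m)⁻¹) ^ (1 / p)) * ∑ i, sgnB (e i) * a i

lemma sum_radEmb {p : ℝ} (hp : 0 < p) (m : ℕ) (a b : Fin m → ℝ) :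
    ∑ e, |radEmb p m a e - radEmb p m b e| ^ p
      = ((2:ℝ) ^ m)⁻¹ * ∑ e : Fin m → Bool, |∑ i, sgnB (e i) * (a i - b i)| ^ p := by
  rw [Finset.mul_sum]
  refine Finset.sum_congr rfl fun e _ => ?_
  rw [radEmb, radEmb, ← mul_sub, ← Finset.sum_sub_distrib, abs_mul,
    Real.mul_rpow (abs_nonneg _) (abs_nonneg _)]
  congr 1
  · rw [abs_of_nonneg (by positivity), ← Real.rpow_mul (by positivity),
      one_div_mul_cancel hp.ne', Real.rpow_one]
  · simp only [mul_sub]

lemma edist2_le_radEmb {p : ℝ} (hp : 2 ≤ p) (m : ℕ) (a b : Fin m → ℝ) :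
    edist2 a b ≤ lpDist p (radEmb p m a) (radEmb p m b) := by
  have hp0 : 0 < p := by linarith
  have h := le_sum_abs_rpow m (fun i => a i - b i) p hp
  rw [lpDist, sum_radEmb hp0, one_div, Real.le_rpow_inv_iff_of_pos (edist2_nonneg _ _)
    (mul_nonneg (by positivity) (Finset.sum_nonneg fun _ _ => Real.rpow_nonneg (abs_nonneg _) _))
    hp0, le_inv_mul_iff₀ (by positivity)]
  exact h

lemma radEmb_le_edist2 {p : ℝ} (hp : 0 < p) (m : ℕ) (a b : Fin m → ℝ) :
    lpDist p (radEmb p m a) (radEmb p m b) ≤ momentConst p ^ (1 / p) * edist2 a b := by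
  have h := sum_abs_rpow_le m (fun i => a i - b i) p hp
  rw [lpDist, sum_radEmb hp, one_div, Real.rpow_inv_le_iff_of_pos
    (mul_nonneg (by positivity) (Finset.sum_nonneg fun _ _ => Real.rpow_nonneg (abs_nonneg _) _))
    (mul_nonneg (Real.rpow_nonneg (zero_le_one.trans (one_le_momentConst p)) _)
      (edist2_nonneg _ _)) hp,
    Real.mul_rpow (Real.rpow_nonneg (zero_le_one.trans (one_le_momentConst p)) _)
      (edist2_nonneg _ _),
    Real.rpow_inv_rpow (zero_le_one.trans (one_le_momentConst p)) hp.ne',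
    inv_mul_le_iff₀ (by positivity), ← mul_assoc]
  exact h

lemma card_lattice_le {m n : ℕ} (hn : 2 ≤ n) (hm : 64 ≤ m)
    (hmn : (m:ℝ) ≤ Real.log n / (8 * Real.log (Real.log n + 3))) :
    Fintype.card (Fin m → Fin (latM m + 1)) ≤ n := by
  set ℓ := Real.log n with hℓ
  have hn1 : (1:ℝ) ≤ (n:ℝ) := by exact_mod_cast (by omega : 1 ≤ n)
  have hℓ0 : 0 ≤ ℓ := Real.log_nonneg hn1
  have hL : 1 ≤ Real.log (ℓ + 3) := by
    rw [Real.le_log_iff_exp_le (by linarith)]
    linarith [Real.exp_one_lt_d9]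
  have hm' : (m:ℝ) * (8 * Real.log (ℓ + 3)) ≤ ℓ := (le_div_iff₀ (by linarith)).1 hmn
  have hmR : (64:ℝ) ≤ (m:ℝ) := by exact_mod_cast hm
  have hml : (m:ℝ) ≤ ℓ + 3 := by nlinarith
  have hq : latQ m ≤ m := by
    refine Nat.ceil_le.2 ?_
    rw [Real.sqrt_le_iff]
    exact ⟨Nat.cast_nonneg m, by nlinarith⟩
  have hq' : (latQ m : ℝ) ≤ (m:ℝ) := by exact_mod_cast hq
  have hM : ((latM m + 1 : ℕ) : ℝ) ≤ (m:ℝ) ^ 3 := by
    rw [latM]; push_cast
    nlinarith [mul_le_mul_of_nonneg_left hq' (show (0:ℝ) ≤ (m:ℝ) + 3 by linarith), sq_nonneg ((m:ℝ))]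
  rw [Fintype.card_fun, Fintype.card_fin, Fintype.card_fin]
  suffices h : (((latM m + 1) ^ m : ℕ) : ℝ) ≤ (n:ℝ) by exact_mod_cast h
  rw [← Real.log_le_log_iff (by positivity) (by linarith), Nat.cast_pow, Real.log_pow]
  have h1 : Real.log ((latM m + 1 : ℕ) : ℝ) ≤ 3 * Real.log (ℓ + 3) := by
    calc Real.log ((latM m + 1 : ℕ) : ℝ) ≤ Real.log ((m:ℝ) ^ 3) :=
          Real.log_le_log (by positivity) hM
      _ = 3 * Real.log m := by rw [Real.log_pow]; norm_num
      _ ≤ _ := by linarith [Real.log_le_log (by linarith : (0:ℝ) < m) hml]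
  calc (m:ℝ) * Real.log ((latM m + 1 : ℕ) : ℝ) ≤ (m:ℝ) * (3 * Real.log (ℓ + 3)) :=
        mul_le_mul_of_nonneg_left h1 (by linarith)
    _ ≤ ℓ := by nlinarith

/-- An `n`-point subset of `ℓ_p^N` containing the image of the lattice. -/
lemma exists_hard_set {p : ℝ} (hp : 2 ≤ p) {m n : ℕ} (hm : 64 ≤ m)
    (hcard : Fintype.card (Fin m → Fin (latM m + 1)) ≤ n) :
    ∃ (N : ℕ) (X : Fin n → Fin N → ℝ), Function.Injective X ∧
      ∀ D : ℝ, 1 ≤ D → ∀ (d : ℕ) (f : Fin n → Fin d → ℝ) (s : ℝ), 0 < s →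
        (∀ i j, s * lpDist p (X i) (X j) ≤ lpDist p (f i) (f j) ∧
          lpDist p (f i) (f j) ≤ D * (s * lpDist p (X i) (X j))) →
        Real.sqrt m ^ p ≤ (8:ℝ) ^ p * momentConst p ^ 2 * Real.exp 2 * D ^ p * d := by
  classical
  have hp0 : 0 < p := by linarith
  have hm0 : 0 < m := by omega
  haveI : Nonempty (Fin m) := ⟨⟨0, hm0⟩⟩
  obtain ⟨T, hT, hTc⟩ := Infinite.exists_superset_card_eq
    (Finset.univ.image (latPt m)) n (Finset.card_image_le.trans hcard)
  set e : Fin n ≃ T := (Fintype.equivFinOfCardEq (by simpa using hTc)).symm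
  set π : (Fin m → Bool) ≃ Fin (Fintype.card (Fin m → Bool)) := Fintype.equivFin _
  refine ⟨_, fun i k => radEmb p m (e i).1 (π.symm k), ?_, ?_⟩
  · intro i j h
    have h' : radEmb p m (e i).1 = radEmb p m (e j).1 := by
      funext u; simpa using congrFun h (π u)
    have h2 := edist2_le_radEmb hp m (e i).1 (e j).1
    rw [h', lpDist] at h2
    simp only [sub_self, abs_zero, Real.zero_rpow hp0.ne', Finset.sum_const_zero,
      Real.zero_rpow (one_div_ne_zero hp0.ne'), edist2] at h2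
    have h3 : ∑ t, ((e i).1 t - (e j).1 t) ^ 2 ≤ 0 := Real.sqrt_eq_zero'.1
      (le_antisymm h2 (Real.sqrt_nonneg _))
    apply e.injective
    apply Subtype.ext
    funext t
    have h4 := (Finset.sum_eq_zero_iff_of_nonneg fun t _ => sq_nonneg _).1
      (le_antisymm h3 (Finset.sum_nonneg fun t _ => sq_nonneg _)) t (Finset.mem_univ t)
    exact sub_eq_zero.1 (pow_eq_zero_iff (n := 2) two_ne_zero |>.1 h4)
  intro D hD d f s hs hf
  have hre : ∀ i j, lpDist p (fun k => radEmb p m (e i).1 (π.symm k))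
      (fun k => radEmb p m (e j).1 (π.symm k))
      = lpDist p (radEmb p m (e i).1) (radEmb p m (e j).1) := by
    intro i j
    simp only [lpDist]
    rw [Equiv.sum_comp π.symm (fun u => |radEmb p m (e i).1 u - radEmb p m (e j).1 u| ^ p)]
  set ix : (Fin m → Fin (latM m + 1)) → Fin n :=
    fun a => e.symm ⟨latPt m a, hT (Finset.mem_image_of_mem _ (Finset.mem_univ a))⟩ with hix
  have hval : ∀ a, (e (ix a)).1 = latPt m a := fun a => by simp [hix]
  have hscale : ∀ i j, lpDist p (fun k => f i k / s) (fun k => f j k / s)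
      = lpDist p (f i) (f j) / s := by
    intro i j
    simp only [lpDist, ← sub_div, abs_div, abs_of_pos hs]
    rw [Finset.sum_congr rfl fun k _ => Real.div_rpow (abs_nonneg _) hs.le p, ← Finset.sum_div,
      Real.div_rpow (Finset.sum_nonneg fun k _ => Real.rpow_nonneg (abs_nonneg _) _)
        (Real.rpow_nonneg hs.le _),
      ← Real.rpow_mul hs.le, mul_one_div_cancel hp0.ne', Real.rpow_one]
  set C := momentConst p
  have hC := one_le_momentConst p
  have hC0 : 0 ≤ C := zero_le_one.trans hC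
  have hC1 : 1 ≤ C ^ (1 / p) := Real.one_le_rpow hC (by positivity)
  have key := lattice_dimension (p := p) (by linarith) hm
    (D := D * C ^ (1 / p)) (one_le_mul_of_one_le_of_one_le hD hC1)
    (fun a k => f (ix a) k / s) ?_ ?_
  · rw [Real.mul_rpow (by linarith) (Real.rpow_nonneg hC0 _), ← Real.rpow_mul hC0,
      one_div_mul_cancel hp0.ne', Real.rpow_one] at key
    exact key.trans_eq (by ring)
  · intro a b
    have h := (hf (ix a) (ix b)).1
    rw [hre, hval, hval] at h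
    rw [hscale, le_div_iff₀ hs]
    nlinarith [edist2_le_radEmb hp m (latPt m a) (latPt m b)]
  · intro a b
    have h := (hf (ix a) (ix b)).2
    rw [hre, hval, hval] at h
    rw [hscale, div_le_iff₀ hs]
    calc lpDist p (f (ix a)) (f (ix b))
        ≤ D * (s * lpDist p (radEmb p m (latPt m a)) (radEmb p m (latPt m b))) := h
      _ ≤ D * (s * (C ^ (1 / p) * edist2 (latPt m a) (latPt m b))) := by
          gcongr; exact radEmb_le_edist2 hp0 m _ _
      _ = _ := by ring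

end Vale.Agent.P249

namespace Vale.Agent.Results.P249.NoLogDimReduction

open Vale.Agent.P249

theorem result (p : ℝ) (hp : 2 < p) :
    ∃ c : ℝ, 0 < c ∧ ∀ n : ℕ, 2 ≤ n →
      ∃ (N : ℕ) (X : Fin n → Fin N → ℝ), Function.Injective X ∧
        ∀ D : ℝ, 1 ≤ D → ∀ (d : ℕ) (f : Fin n → Fin d → ℝ) (s : ℝ), 0 < s →
          (∀ i j : Fin n,
            s * (∑ k, |X i k - X j k| ^ p) ^ (1 / p) ≤ (∑ k, |f i k - f j k| ^ p) ^ (1 / p) ∧
            (∑ k, |f i k - f j k| ^ p) ^ (1 / p)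
              ≤ D * (s * (∑ k, |X i k - X j k| ^ p) ^ (1 / p))) →
          c * (Real.log (n : ℝ) / Real.log (Real.log (n : ℝ) + 3)) ^ (p / 2) / D ^ p ≤ (d : ℝ) := by
  have hp0 : 0 < p := by linarith
  set C := momentConst p
  have hC := one_le_momentConst p
  set B : ℝ := (8:ℝ) ^ p * C ^ 2 * Real.exp 2 * (2000:ℝ) ^ (p / 2) with hB
  have hB0 : 0 < B := by
    have : 0 < C := by linarith
    positivity
  refine ⟨1 / B, by positivity, fun n hn => ?_⟩
  set ℓ := Real.log (n : ℝ) with hℓ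
  set L := Real.log (ℓ + 3) with hLdef
  have hn1 : (1:ℝ) ≤ (n:ℝ) := by exact_mod_cast (by omega : 1 ≤ n)
  have hℓ0 : 0 ≤ ℓ := Real.log_nonneg hn1
  have hL : 1 ≤ L := by
    rw [hLdef, Real.le_log_iff_exp_le (by linarith)]
    linarith [Real.exp_one_lt_d9]
  set t := ℓ / L with ht
  have ht0 : 0 ≤ t := by positivity
  set m := ⌊ℓ / (8 * L)⌋₊ with hm
  rcases le_or_gt 64 m with hm64 | hm64
  · have hmle : (m:ℝ) ≤ ℓ / (8 * L) := Nat.floor_le (by positivity)
    obtain ⟨N, X, hinj, hX⟩ := exists_hard_set hp.le hm64 (card_lattice_le hn hm64 hmle)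
    refine ⟨N, X, hinj, fun D hD d f s hs hf => ?_⟩
    have key := hX D hD d f s hs hf
    have hD0 : 0 < D ^ p := Real.rpow_pos_of_pos (by linarith) _
    have hfl := Nat.lt_floor_add_one (ℓ / (8 * L))
    rw [← hm] at hfl
    have hmR : (64:ℝ) ≤ (m:ℝ) := by exact_mod_cast hm64
    have ht2 : t ≤ 2000 * (m:ℝ) := by
      have : ℓ / (8 * L) = t / 8 := by rw [ht]; field_simp
      linarith
    have h1 : t ^ (p / 2) ≤ (2000:ℝ) ^ (p / 2) * Real.sqrt m ^ p := by
      calc t ^ (p / 2) ≤ (2000 * (m:ℝ)) ^ (p / 2) := Real.rpow_le_rpow ht0 ht2 (by linarith)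
        _ = _ := by
            rw [Real.mul_rpow (by norm_num) (Nat.cast_nonneg m), Real.sqrt_eq_rpow,
              ← Real.rpow_mul (Nat.cast_nonneg m)]
            congr 2; ring
    rw [div_le_iff₀ hD0, one_div, inv_mul_le_iff₀ hB0]
    calc t ^ (p / 2) ≤ (2000:ℝ) ^ (p / 2) * Real.sqrt m ^ p := h1
      _ ≤ (2000:ℝ) ^ (p / 2) * ((8:ℝ) ^ p * C ^ 2 * Real.exp 2 * D ^ p * d) := by gcongr
      _ = B * (↑d * D ^ p) := by rw [hB]; ring
  · refine ⟨1, fun i _ => ((i : ℕ) : ℝ), fun i j h => ?_, fun D hD d f s hs hf => ?_⟩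
    · have h0 : ((i : ℕ) : ℝ) = ((j : ℕ) : ℝ) := congrFun h 0
      exact Fin.ext (Nat.cast_injective h0)
    have hd : 1 ≤ d := by
      by_contra hd
      obtain rfl : d = 0 := by omega
      have h := (hf ⟨0, by omega⟩ ⟨1, by omega⟩).1
      simp [Real.zero_rpow (inv_ne_zero hp0.ne')] at h
      linarith
    have hfl := Nat.lt_floor_add_one (ℓ / (8 * L))
    rw [← hm] at hfl
    have hm63 : (m:ℝ) + 1 ≤ 64 := by exact_mod_cast hm64
    have ht2 : t ≤ 2000 := by
      have : ℓ / (8 * L) = t / 8 := by rw [ht]; field_simp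
      linarith
    have hD1 : 1 ≤ D ^ p := Real.one_le_rpow hD hp0.le
    have h8 : (1:ℝ) ≤ (8:ℝ) ^ p * C ^ 2 * Real.exp 2 :=
      one_le_mul_of_one_le_of_one_le
        (one_le_mul_of_one_le_of_one_le (Real.one_le_rpow (by norm_num) hp0.le)
          (one_le_pow₀ hC)) (Real.one_le_exp (by norm_num))
    have h1 : t ^ (p / 2) ≤ B := by
      calc t ^ (p / 2) ≤ 1 * (2000:ℝ) ^ (p / 2) := by
            rw [one_mul]; exact Real.rpow_le_rpow ht0 ht2 (by linarith)
        _ ≤ B := by rw [hB]; gcongr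
    have hd' : (1:ℝ) ≤ (d:ℝ) := by exact_mod_cast hd
    rw [div_le_iff₀ (by linarith), one_div, inv_mul_le_iff₀ hB0]
    calc t ^ (p / 2) ≤ B := h1
      _ ≤ B * (↑d * D ^ p) :=
          le_mul_of_one_le_right hB0.le (one_le_mul_of_one_le_of_one_le hd' hD1)

end Vale.Agent.Results.P249.NoLogDimReduction
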