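import Mathlib
import Vale.Agent.P249.Full.Parts

/-! Sublinear dimension reduction in `L_p` at every distortion above one. -/

namespace Vale.Agent.Results.P249.SublinearEveryDistortion

open Finset

theorem result (p : ℝ) (hp : 1 < p) (D : ℝ) (hD : 1 < D) :
    ∃ κ C : ℝ, 0 < κ ∧ 0 < C ∧ ∀ n : ℕ, 2 ≤ n → ∀ (N : ℕ) (X : Fin n → Fin N → ℝ),
      Function.Injective X →
        ∃ d : ℕ, (d : ℝ) ≤ C * (n:ℝ) ^ (1 - κ) ∧
          ∃ (f : Fin n → Fin d → ℝ) (s : ℝ), 0 < s ∧ ∀ i j : Fin n,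
            s * (∑ k, |X i k - X j k| ^ p) ^ (1 / p) ≤ (∑ k, |f i k - f j k| ^ p) ^ (1 / p) ∧
            (∑ k, |f i k - f j k| ^ p) ^ (1 / p)
              ≤ D * (s * (∑ k, |X i k - X j k| ^ p) ^ (1 / p)) :=
  Vale.Agent.P249.Full.sublinear hp D hD

end Vale.Agent.Results.P249.SublinearEveryDistortion
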