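import Mathlib
import Vale.Agent.P249.Reduce
import Vale.Agent.P249.Glue
import Vale.Agent.P249.Level
import Vale.Agent.P249.WindowAny
import Vale.Agent.P249.Combine

/-! Dimension reduction to `n^γ` coordinates in `L_p` at bounded distortion, for every `p ≥ 1`. -/

namespace Vale.Agent.P249

open Finset

/-- The scales covering a finite metric. -/
lemma exists_range {n : ℕ} {t : Fin n → Fin n → ℝ} (ht : FMetric t) :
    ∃ m m' : ℕ, (∀ x y, x ≠ y → (2:ℝ) ^ (-(m:ℤ)) ≤ t x y) ∧ ∀ x y, t x y < (2:ℝ) ^ m' := by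
  obtain ⟨m, hm⟩ := pow_unbounded_of_one_lt
    (∑ x : Fin n, ∑ y : Fin n, (t x y)⁻¹) (by norm_num : (1:ℝ) < 2)
  obtain ⟨m', hm'⟩ := pow_unbounded_of_one_lt
    (∑ x : Fin n, ∑ y : Fin n, t x y) (by norm_num : (1:ℝ) < 2)
  have hsum : ∀ f : Fin n → Fin n → ℝ, (∀ a b, 0 ≤ f a b) → ∀ x y,
      f x y ≤ ∑ a, ∑ b, f a b := fun f hf x y =>
    (Finset.single_le_sum (fun b _ => hf x b) (Finset.mem_univ y)).trans
      (Finset.single_le_sum (f := fun a => ∑ b, f a b)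
        (fun a _ => Finset.sum_nonneg fun b _ => hf a b) (Finset.mem_univ x))
  refine ⟨m, m', fun x y hxy => ?_, fun x y => lt_of_le_of_lt (hsum t ht.nonneg x y) hm'⟩
  have h1 := hsum (fun a b => (t a b)⁻¹) (fun a b => inv_nonneg.2 (ht.nonneg a b)) x y
  rw [zpow_neg, zpow_natCast, inv_le_comm₀ (by positivity) (ht.pos x y hxy)]
  linarith

/-- Gluing all windows and all signs, from the window maps. -/
lemma embed_from_windows {p : ℝ} (hp : 1 ≤ p) [Fact (1 ≤ ENNReal.ofReal p)] {κ : Type*} [Fintype κ]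
    {n N : ℕ} (hn : 2 ≤ n) (X : Fin n → Fin N → ℝ) (TY : Fin n → Fin n → ℝ)
    (hTY : ∀ i j, powDist p (X i) (X j) / 4 ≤ TY i j ∧ TY i j ≤ 3 * powDist p (X i) (X j))
    (ht : FMetric (fun a b => TY a b ^ (1 / p)))
    {U Q P R : ℕ} {C0 c0 B0 D1 L : ℝ} (hU : 0 < U) (hC0 : 1 ≤ C0) (hc0 : 1 / 1 ≥ c0) (hc : 0 < c0)
    (G : ℤ → Fin n → PiLp (ENNReal.ofReal p) (fun _ : κ => ℝ))
    (hup : ∀ (w : ℤ) z z', ‖G w z - G w z'‖ ≤ C0 * (TY z z' ^ (1 / p) + (2:ℝ) ^ (w * U)))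
    (hbdd : ∀ (w : ℤ) z z', ‖G w z - G w z'‖ ≤ B0 * (2:ℝ) ^ (w * U))
    (hlow : ∀ (w : ℤ) z z', (2:ℝ) ^ (w * U) ≤ TY z z' ^ (1 / p) →
      TY z z' ^ (1 / p) < (2:ℝ) ^ ((w + 2) * U + Q) →
      c0 * TY z z' ^ (1 / p) ≤ ‖G w z - G w z'‖)
    (hQ : 12 * C0 ≤ (2:ℝ) ^ Q * c0) (hB0 : 0 ≤ B0) (hP : B0 ≤ (2:ℝ) ^ P)
    (hD1 : (135 * C0 * Real.log n + 11 * C0 * P + 4) / U ≤ D1)
    (hL : L = 3 * Real.log n + 2) (hR : 8 * L ≤ R) :
    ∃ (f : Fin n → Fin (Fintype.card (Fin R × κ)) → ℝ) (s : ℝ), 0 < s ∧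
      ∀ i j, s * powDist p (X i) (X j) ^ (1 / p) ≤ powDist p (f i) (f j) ^ (1 / p) ∧
        powDist p (f i) (f j) ^ (1 / p)
          ≤ 256 * D1 / c0 * (s * powDist p (X i) (X j) ^ (1 / p)) := by
  have hp0 : 0 < p := by linarith
  set t : Fin n → Fin n → ℝ := fun a b => TY a b ^ (1 / p) with htdef
  obtain ⟨m, m', hm, hm'⟩ := exists_range ht
  obtain ⟨a, ha⟩ : ∃ a : ℤ, a = -((m + Q + 1 : ℕ) : ℤ) := ⟨_, rfl⟩
  obtain ⟨Wn, hWn⟩ : ∃ Wn : ℕ, Wn = m' + m + Q + 1 := ⟨_, rfl⟩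
  obtain ⟨S, hS⟩ : ∃ S : ℕ, S = ⌈(2:ℝ) ^ ((a + Wn) * U) * 2 ^ m⌉₊ + 1 := ⟨_, rfl⟩
  have hUZ : (1:ℤ) ≤ U := by exact_mod_cast hU
  obtain ⟨hsum, hex⟩ := glue (U := U) (Q := Q) (P := P) (S := S) ht G hU (by omega) hC0 hc
    hup hbdd hlow hQ hB0 hP a Wn
    (fun x y hxy => by
      refine le_trans ?_ (hm x y hxy)
      rw [div_le_iff₀ (by rw [hS]; positivity), zpow_neg, zpow_natCast, ← div_eq_inv_mul,
        le_div_iff₀ (by positivity)]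
      rw [hS]; push_cast
      linarith [Nat.le_ceil ((2:ℝ) ^ ((a + Wn) * U) * 2 ^ m)])
    (fun x y hxy => by
      refine ⟨le_trans (zpow_le_zpow_right₀ (by norm_num) ?_) (hm x y hxy), ?_⟩
      · rw [ha]; push_cast
        nlinarith [Int.natCast_nonneg (n := m), Int.natCast_nonneg (n := Q)]
      · refine (hm' x y).trans_le ?_
        rw [← zpow_natCast]
        refine zpow_le_zpow_right₀ (by norm_num) ?_
        rw [ha, hWn]; push_cast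
        nlinarith [Int.natCast_nonneg (n := m'), Int.natCast_nonneg (n := Q)])
  obtain ⟨f, hf⟩ := signs_combine (R := R) hp0 hn hL hR
    (fun (i : Fin Wn) x => windowMap t S U G (a + (i : ℕ)) x) t ht.nonneg (D1 := D1) (c := c0 / 2)
    (by linarith) (fun x y => by
      rw [Fin.sum_univ_eq_sum_range
        (fun i => ‖windowMap t S U G (a + i) x - windowMap t S U G (a + i) y‖) Wn]
      exact (hsum x y).trans (mul_le_mul_of_nonneg_right hD1 (ht.nonneg x y)))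
    (fun x y hxy => by
      obtain ⟨i, hi⟩ := hex x y hxy
      exact ⟨i, le_trans (le_of_eq (by ring)) hi⟩)
  have hlogn : 0 ≤ Real.log n := Real.log_natCast_nonneg n
  have hRpos : (0:ℝ) < R := by linarith
  refine ⟨f, (R:ℝ) ^ (1 / p) * c0 / 64, by positivity, fun x y => ?_⟩
  rcases eq_or_ne x y with rfl | hxy
  · simp [powDist, Real.zero_rpow hp0.ne', hp0.ne']
  obtain ⟨hlo, hhi⟩ := hf x y hxy
  have hD0 : 0 ≤ D1 := le_trans (by positivity) hD1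
  have hXnn := powDist_nonneg p (X x) (X y)
  have hTYnn : 0 ≤ TY x y := le_trans (by linarith) (hTY x y).1
  set τ := powDist p (X x) (X y) ^ (1 / p) with hτdef
  have hτ : 0 ≤ τ := Real.rpow_nonneg hXnn _
  have hp' : 1 / p ≤ 1 := (div_le_one hp0).2 hp
  have h1 : τ / 4 ≤ t x y := by
    calc τ / 4 = 1 / 4 * τ := by ring
      _ ≤ (1 / 4 : ℝ) ^ (1 / p) * τ := mul_le_mul_of_nonneg_right
          (Real.self_le_rpow_of_le_one (by norm_num) (by norm_num) hp') hτ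
      _ = (1 / 4 * powDist p (X x) (X y)) ^ (1 / p) := by rw [Real.mul_rpow (by norm_num) hXnn]
      _ ≤ _ := Real.rpow_le_rpow (by positivity) (by linarith [(hTY x y).1]) (by positivity)
  have h2 : t x y ≤ 3 * τ := by
    calc t x y ≤ (3 * powDist p (X x) (X y)) ^ (1 / p) :=
          Real.rpow_le_rpow hTYnn (hTY x y).2 (by positivity)
      _ = (3:ℝ) ^ (1 / p) * τ := by rw [Real.mul_rpow (by norm_num) hXnn]
      _ ≤ _ := mul_le_mul_of_nonneg_right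
          ((Real.rpow_le_rpow_of_exponent_le (by norm_num) hp').trans_eq (Real.rpow_one _)) hτ
  have hroot : ∀ z : ℝ, 0 ≤ z → ((R:ℝ) * z ^ p) ^ (1 / p) = (R:ℝ) ^ (1 / p) * z := fun z hz => by
    rw [Real.mul_rpow hRpos.le (Real.rpow_nonneg hz _), ← Real.rpow_mul hz,
      mul_one_div_cancel hp0.ne', Real.rpow_one]
  have hRp : 0 ≤ (R:ℝ) ^ (1 / p) := Real.rpow_nonneg hRpos.le _
  have htnn := ht.nonneg x y
  constructor
  · have e1 := Real.rpow_le_rpow (by positivity) hlo (show 0 ≤ 1 / p by positivity)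
    rw [show (R:ℝ) / 8 * (c0 / 2 * t x y) ^ p = 1 / 8 * ((R:ℝ) * (c0 / 2 * t x y) ^ p) by ring,
      Real.mul_rpow (by norm_num) (by positivity), hroot _ (by positivity)] at e1
    refine le_trans ?_ e1
    have e8 : (1 / 8 : ℝ) ≤ (1 / 8 : ℝ) ^ (1 / p) :=
      Real.self_le_rpow_of_le_one (by norm_num) (by norm_num) hp'
    calc (R:ℝ) ^ (1 / p) * c0 / 64 * τ
        = 1 / 8 * ((R:ℝ) ^ (1 / p) * (c0 / 2 * (τ / 4))) := by ring
      _ ≤ _ := by gcongr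
  · have e1 := Real.rpow_le_rpow (powDist_nonneg _ _ _) hhi (show 0 ≤ 1 / p by positivity)
    rw [hroot _ (by positivity)] at e1
    refine e1.trans ?_
    calc (R:ℝ) ^ (1 / p) * (D1 * t x y) ≤ (R:ℝ) ^ (1 / p) * (D1 * (3 * τ)) := by gcongr
      _ ≤ (R:ℝ) ^ (1 / p) * (D1 * τ) * (64 / 64 * 4) * 1 := by
          nlinarith [mul_nonneg hRp (mul_nonneg hD0 hτ)]
      _ = _ := by field_simp; ring

lemma small_le_two_pow {a Q : ℕ} (h : a ≤ Q) : (a:ℝ) ≤ (2:ℝ) ^ Q := by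
  exact_mod_cast h.trans Q.lt_two_pow_self.le

/-- The window parameters. -/
lemma window_params {p : ℝ} (hp : 1 ≤ p) {n m pn I ℓ Q U R S : ℕ} (hn : 2 ≤ n) (hpn : p ≤ pn)
    (hI : I = 3 * m + 8) (hℓ : ℓ = 4 * m + 8 * pn + 6)
    (hQ : 160 * I * 8 ^ pn * (3 * m + 2) ≤ Q) (hQ2 : 384 * m ≤ Q) (hU : Q + 10 ≤ U)
    (hm : n ≤ 2 ^ (m * U)) {L : ℝ} (hL : L = 3 * Real.log n + 2) (hR : 8 * L ≤ R) (hR0 : 0 < R)
    (hS : 0 < S) (w : ℤ) :
    LevelParams p n U S (2 ^ (Q + U + pn * (6 * U + 2 * Q + 10)))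
      (2 * 2 ^ (Q + U + pn * (6 * U + 2 * Q + 10)) * 2 ^ U) R ℓ (w * U + (4 * U + 2 * Q : ℕ))
      ((2:ℝ) ^ (w * U)) ((2:ℝ) ^ (2 * U + Q)) ((2:ℝ) ^ U) L (1 / (16 * I * 8 ^ p)) := by
  have hn0 : (0:ℝ) < n := by exact_mod_cast (by omega : 0 < n)
  have hlogn : 0 ≤ Real.log n := Real.log_natCast_nonneg n
  have hIR : (1:ℝ) ≤ I := by exact_mod_cast (by omega : 1 ≤ I)
  have h8 : (1:ℝ) ≤ 8 ^ p := Real.one_le_rpow (by norm_num) (by linarith)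
  have hr : (0:ℝ) < (2:ℝ) ^ (w * U) := zpow_pos (by norm_num) _
  have hlogU : Real.log n ≤ m * (U:ℝ) := by
    have h1 : (n:ℝ) ≤ (2:ℝ) ^ (m * U) := by exact_mod_cast hm
    have h2 := Real.log_le_log hn0 h1
    rw [Real.log_pow] at h2
    push_cast at h2
    nlinarith [Real.log_two_lt_d9, mul_nonneg (Nat.cast_nonneg (α := ℝ) m) (Nat.cast_nonneg (α := ℝ) U)]
  have hU2 : (U:ℝ) ≤ 2 ^ U := small_le_two_pow le_rfl
  have hU1 : (1:ℝ) ≤ 2 ^ U := one_le_pow₀ (by norm_num)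
  have hk : (2:ℝ) ^ (w * U + (4 * U + 2 * Q : ℕ)) = (2:ℝ) ^ (w * U) * 2 ^ (4 * U + 2 * Q) := by
    rw [zpow_add₀ (by norm_num : (2:ℝ) ≠ 0), zpow_natCast]
  refine ⟨by omega, hS, by positivity, hR0, by omega, Nat.one_le_two_pow, hr,
    one_le_pow₀ (by norm_num), hU1, by positivity, ?_, ?_, ?_, ?_, by linarith, ?_, ?_, ?_, hR⟩
  · rw [div_le_one (by positivity)]
    nlinarith
  · rw [hk]
    exact le_mul_of_one_le_right hr.le (one_le_pow₀ (by norm_num))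
  · rw [hk]
    have h1 : (384:ℝ) * Real.log n ≤ 2 ^ Q * 2 ^ U := by
      calc (384:ℝ) * Real.log n ≤ ((384 * m : ℕ) : ℝ) * U := by push_cast; nlinarith
        _ ≤ 2 ^ Q * 2 ^ U := mul_le_mul (small_le_two_pow hQ2) hU2 (Nat.cast_nonneg _) (by positivity)
    calc 384 * (2:ℝ) ^ U * (2 ^ (2 * U + Q) * (2:ℝ) ^ (w * U)) * Real.log n
        = (384 * Real.log n) * (2 ^ U * 2 ^ (2 * U + Q) * (2:ℝ) ^ (w * U)) := by ring
      _ ≤ (2 ^ Q * 2 ^ U) * (2 ^ U * 2 ^ (2 * U + Q) * (2:ℝ) ^ (w * U)) :=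
          mul_le_mul_of_nonneg_right h1 (by positivity)
      _ = _ := by ring
  · rw [hk]
    calc 4 * ((2:ℝ) ^ (2 * U + Q) * (2:ℝ) ^ (w * U)) = (2:ℝ) ^ (w * U) * 2 ^ (2 + (2 * U + Q)) := by
          rw [pow_add]; ring
      _ ≤ _ := mul_le_mul_of_nonneg_left (pow_le_pow_right₀ (by norm_num) (by omega)) hr.le
  · rw [hL]; exact log_fail_bound hn
  · have hbase : 64 * (2:ℝ) ^ U * (16 * (2:ℝ) ^ (w * U + (4 * U + 2 * Q : ℕ) + U)) / (2:ℝ) ^ (w * U)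
        = 2 ^ (6 * U + 2 * Q + 10) := by
      rw [zpow_add₀ (by norm_num : (2:ℝ) ≠ 0), hk, zpow_natCast]
      field_simp
      ring
    rw [hbase]
    have h1 : ((2:ℝ) ^ (6 * U + 2 * Q + 10)) ^ p ≤ 2 ^ (pn * (6 * U + 2 * Q + 10)) := by
      calc _ ≤ ((2:ℝ) ^ (6 * U + 2 * Q + 10)) ^ (pn:ℝ) :=
            Real.rpow_le_rpow_of_exponent_le (one_le_pow₀ (by norm_num)) hpn
        _ = _ := by rw [Real.rpow_natCast, ← pow_mul]; ring_nf
    have h2 : 10 * L / (1 / (16 * I * 8 ^ p)) ≤ 2 ^ Q * 2 ^ U := by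
      have h8' : (8:ℝ) ^ p ≤ 8 ^ pn := by
        rw [← Real.rpow_natCast]; exact Real.rpow_le_rpow_of_exponent_le (by norm_num) hpn
      have hLU : L ≤ (3 * m + 2) * 2 ^ U := by nlinarith [Nat.cast_nonneg (α := ℝ) m]
      rw [div_div_eq_mul_div, div_one]
      calc 10 * L * (16 * I * 8 ^ p) ≤ 10 * ((3 * m + 2) * 2 ^ U) * (16 * I * 8 ^ pn) := by
            gcongr
        _ = ((160 * I * 8 ^ pn * (3 * m + 2) : ℕ) : ℝ) * 2 ^ U := by push_cast; ring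
        _ ≤ _ := mul_le_mul_of_nonneg_right (small_le_two_pow hQ) (by positivity)
    push_cast
    rw [pow_add (2:ℝ) (Q + U), pow_add (2:ℝ) Q U]
    exact mul_le_mul h2 h1 (Real.rpow_nonneg (by positivity) _) (by positivity)
  · push_cast
    obtain ⟨e, he⟩ : ∃ e, e = Q + U + pn * (6 * U + 2 * Q + 10) := ⟨_, rfl⟩
    rw [← he]
    have h1 : (2 * (2:ℝ) ^ e) ^ ℓ * ((2 * (2:ℝ) ^ e * 2 ^ U)⁻¹) ^ ℓ = ((2:ℝ) ^ (U * ℓ))⁻¹ := by
      rw [← mul_pow, pow_mul, ← inv_pow]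
      congr 1
      field_simp
    have hn4 : 2 * (n:ℝ) ^ 4 ≤ 2 ^ (1 + 4 * (m * U)) := by
      have h2 : (n:ℝ) ≤ (2:ℝ) ^ (m * U) := by exact_mod_cast hm
      calc 2 * (n:ℝ) ^ 4 ≤ 2 * ((2:ℝ) ^ (m * U)) ^ 4 := by gcongr
        _ = _ := by rw [← pow_mul, pow_add]; ring
    calc 2 * (n:ℝ) ^ 4 * (2 * 2 ^ e) ^ ℓ * (2 * 2 ^ e * 2 ^ U) * ((2 * (2:ℝ) ^ e * 2 ^ U)⁻¹) ^ ℓ
        = (2 * (n:ℝ) ^ 4) * (2 * 2 ^ e * 2 ^ U) *
          ((2 * (2:ℝ) ^ e) ^ ℓ * ((2 * (2:ℝ) ^ e * 2 ^ U)⁻¹) ^ ℓ) := by ring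
      _ ≤ 2 ^ (1 + 4 * (m * U)) * (2 * 2 ^ e * 2 ^ U) * ((2:ℝ) ^ (U * ℓ))⁻¹ := by
          rw [h1]; gcongr
      _ = 2 ^ (1 + 4 * (m * U) + (1 + e + U)) * ((2:ℝ) ^ (U * ℓ))⁻¹ := by
          rw [pow_add, pow_add, pow_add, pow_one]; ring
      _ < 1 := by
          rw [mul_inv_lt_iff₀ (by positivity), one_mul]
          refine pow_lt_pow_right₀ (by norm_num) ?_
          have : pn * (6 * U + 2 * Q + 10) ≤ pn * (8 * U) := Nat.mul_le_mul_left _ (by omega)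
          rw [hℓ]
          nlinarith

theorem embed_any_exponent (p : ℝ) (hp : 1 ≤ p) (m pn : ℕ) (hm : 0 < m) (hpn : p ≤ pn) :
    ∃ D C : ℝ, 1 ≤ D ∧ 0 < C ∧ ∀ n : ℕ, 2 ≤ n → ∀ (N : ℕ) (X : Fin n → Fin N → ℝ),
      Function.Injective X → ∃ d : ℕ, (d : ℝ) ≤ C * (n : ℝ) ^ (((4 + 8 * pn : ℕ) : ℝ) / m) ∧
        ∃ (f : Fin n → Fin d → ℝ) (s : ℝ), 0 < s ∧ ∀ i j,
          s * powDist p (X i) (X j) ^ (1 / p) ≤ powDist p (f i) (f j) ^ (1 / p) ∧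
          powDist p (f i) (f j) ^ (1 / p) ≤ D * (s * powDist p (X i) (X j) ^ (1 / p)) := by
  have hp0 : 0 < p := by linarith
  haveI hfact : Fact (1 ≤ ENNReal.ofReal p) := ⟨by simpa using hp⟩
  obtain ⟨I, hI⟩ : ∃ I : ℕ, I = 3 * m + 8 := ⟨_, rfl⟩
  obtain ⟨ℓ, hℓ⟩ : ∃ ℓ : ℕ, ℓ = 4 * m + 8 * pn + 6 := ⟨_, rfl⟩
  obtain ⟨C0, hC0⟩ : ∃ C0 : ℕ, C0 = I * ℓ * (100 + 504 * m) := ⟨_, rfl⟩
  obtain ⟨Q, hQ⟩ : ∃ Q : ℕ,
      Q = 12 * 1024 * ℓ * C0 + 384 * m + 160 * I * 8 ^ pn * (3 * m + 2) + 24 * I * ℓ := ⟨_, rfl⟩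
  have hℓR : (1:ℝ) ≤ ℓ := by exact_mod_cast (by omega : 1 ≤ ℓ)
  obtain ⟨D1, hD1⟩ : ∃ D1 : ℝ, D1 = 135 * C0 * m + 99 * C0 + 4 := ⟨_, rfl⟩
  obtain ⟨E, hE⟩ : ∃ E : ℝ, E = 2 * I * 50 ^ 2 * ((2:ℝ) ^ (Q + 10)) ^ (4 + 8 * pn) := ⟨_, rfl⟩
  refine ⟨256 * D1 * (1024 * ℓ), E * ((m:ℝ) + 1) ^ 2, ?_, by
    have : (0:ℝ) < I := by exact_mod_cast (by omega : 0 < I)
    rw [hE]; positivity, fun n hn N X hX => ?_⟩
  · have h4 : 1 ≤ D1 := by
      have : (0:ℝ) ≤ 135 * C0 * m + 99 * C0 := by positivity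
      linarith
    nlinarith
  obtain ⟨U, hU⟩ : ∃ U : ℕ, U = max (Q + 10) (Nat.log 2 n / m + 1) := ⟨_, rfl⟩
  have hUQ : Q + 10 ≤ U := hU ▸ le_max_left _ _
  have hU0 : 0 < U := by omega
  have hnmU : n ≤ 2 ^ (m * U) := by
    refine (Nat.lt_pow_succ_log_self (by norm_num) n).le.trans (Nat.pow_le_pow_right (by norm_num) ?_)
    have h1 : m * (Nat.log 2 n / m + 1) ≤ m * U := Nat.mul_le_mul_left m (hU ▸ le_max_right _ _)
    have h2 := Nat.div_add_mod (Nat.log 2 n) m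
    have h3 := Nat.mod_lt (Nat.log 2 n) hm
    rw [Nat.mul_add] at h1
    omega
  have hn0 : (0:ℝ) < n := by exact_mod_cast (by omega : 0 < n)
  have hn1 : (1:ℝ) ≤ n := by exact_mod_cast (by omega : 1 ≤ n)
  have hlogn : 0 ≤ Real.log n := Real.log_nonneg hn1
  have hlogU : Real.log n ≤ m * (U:ℝ) := by
    have h1 : (n:ℝ) ≤ (2:ℝ) ^ (m * U) := by exact_mod_cast hnmU
    have h2 := Real.log_le_log hn0 h1
    rw [Real.log_pow] at h2
    push_cast at h2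
    nlinarith [Real.log_two_lt_d9, mul_nonneg (Nat.cast_nonneg (α := ℝ) m) (Nat.cast_nonneg (α := ℝ) U)]
  obtain ⟨L, hL⟩ : ∃ L : ℝ, L = 3 * Real.log n + 2 := ⟨_, rfl⟩
  obtain ⟨R, hRdef⟩ : ∃ R : ℕ, R = ⌈8 * L⌉₊ + 1 := ⟨_, rfl⟩
  have hR : 8 * L ≤ R := by rw [hRdef]; push_cast; linarith [Nat.le_ceil (8 * L)]
  obtain ⟨Y, hY⟩ := exists_coord_reduction hp0 hn X hX
  set t : Fin n → Fin n → ℝ := fun a b => powDist p (Y a) (Y b) ^ (1 / p) with htdef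
  have htp : ∀ a b, t a b ^ p = powDist p (Y a) (Y b) := fun a b => by
    simp only [htdef]
    rw [← Real.rpow_mul (powDist_nonneg _ _ _), one_div_mul_cancel hp0.ne', Real.rpow_one]
  have hmet : FMetric t := by
    refine ⟨fun x => ?_, fun x y => ?_, fun x y z => ?_, fun x y hxy => ?_⟩
    · simp [htdef, powDist, Real.zero_rpow hp0.ne', hp0.ne']
    · simp [htdef, powDist, abs_sub_comm]
    · have := Real.Lp_add_le Finset.univ (fun k => Y x k - Y y k) (fun k => Y y k - Y z k) hp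
      simpa [htdef, powDist] using this
    · exact Real.rpow_pos_of_pos (lt_of_lt_of_le
        (div_pos (powDist_pos (hX.ne hxy)) (by norm_num)) (hY x y).1) (1 / p)
  obtain ⟨mm, _, hmm, _⟩ := exists_range hmet
  obtain ⟨s, hs⟩ : ∃ s : ℕ, s = 2 ^ (Q + U + pn * (6 * U + 2 * Q + 10)) := ⟨_, rfl⟩
  obtain ⟨B, hB⟩ : ∃ B : ℕ, B = 2 * s * 2 ^ U := ⟨_, rfl⟩
  have hwin : ∀ w : ℤ, ∃ G : Fin n → PiLp (ENNReal.ofReal p) (fun _ : Fin I × (Fin R × Fin B) => ℝ),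
      ∀ a b, ‖G a - G b‖ ≤ C0 * (t a b + (2:ℝ) ^ (w * U)) ∧
        ‖G a - G b‖ ≤ ((24 * I * ℓ : ℕ) : ℝ) * 2 ^ (5 * U + 2 * Q) * (2:ℝ) ^ (w * U) ∧
        ((2:ℝ) ^ (w * U) ≤ t a b → t a b < (2:ℝ) ^ ((w + 2) * U + Q) →
          1 / (1024 * ℓ) * t a b ≤ ‖G a - G b‖) := by
    intro w
    obtain ⟨S, hS⟩ : ∃ S : ℕ,
        S = ⌈(2:ℝ) ^ (w * U + (4 * U + 2 * Q : ℕ) + U) * 2 ^ mm⌉₊ + 1 := ⟨_, rfl⟩
    have P := window_params (S := S) hp hn hpn hI hℓ (by omega) (by omega) hUQ hnmU hL hR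
      (by omega) (by omega) w
    rw [← hs, ← hB] at P
    obtain ⟨G, hG⟩ := exists_window_any hp hn (by positivity) Y hmet htp P
      (fun x y hxy => by
        refine le_trans ?_ (hmm x y hxy)
        rw [div_le_iff₀ (by rw [hS]; positivity), zpow_neg, zpow_natCast, ← div_eq_inv_mul,
          le_div_iff₀ (by positivity), hS, Nat.cast_add_one]
        linarith [Nat.le_ceil ((2:ℝ) ^ (w * U + (4 * U + 2 * Q : ℕ) + U) * 2 ^ mm)])
      (by omega : 0 < I)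
      (by
        push_cast
        have hn3 : (n:ℝ) ^ 3 ≤ 2 ^ (3 * (m * U)) := by
          calc (n:ℝ) ^ 3 ≤ ((2:ℝ) ^ (m * U)) ^ 3 := by gcongr; exact_mod_cast hnmU
            _ = _ := by rw [← pow_mul]; ring_nf
        calc 4 * (16 * (n:ℝ) ^ 3) * 2 ^ (2 * U + Q) ≤ 64 * 2 ^ (3 * (m * U)) * 2 ^ (2 * U + Q) := by
              nlinarith [mul_le_mul_of_nonneg_right hn3 (show (0:ℝ) ≤ 2 ^ (2 * U + Q) by positivity)]
          _ = 2 ^ (6 + 3 * (m * U) + (2 * U + Q)) := by rw [pow_add (2:ℝ) (6 + 3 * (m * U)), pow_add (2:ℝ) 6]; norm_num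
          _ ≤ 2 ^ (U * I) := pow_le_pow_right₀ (by norm_num) (by rw [hI]; nlinarith)
          _ = _ := by rw [← pow_mul])
      (le_of_eq (by
        have : (0:ℝ) < I := by exact_mod_cast (by omega : 0 < I)
        field_simp))
    refine ⟨G, fun a b => ⟨(hG a b).1.trans ?_, (hG a b).2.1.trans (le_of_eq ?_), fun h1 h2 => ?_⟩⟩
    · refine mul_le_mul_of_nonneg_right ?_ (add_nonneg (hmet.nonneg a b) (zpow_nonneg (by norm_num) _))
      rw [hC0]; push_cast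
      refine mul_le_mul_of_nonneg_left ?_ (by positivity)
      have : Real.log n / U ≤ m := (div_le_iff₀ (by exact_mod_cast hU0)).2 (by linarith)
      rw [mul_div_assoc]
      linarith
    · rw [zpow_add₀ (by norm_num : (2:ℝ) ≠ 0), zpow_add₀ (by norm_num : (2:ℝ) ≠ 0), zpow_natCast,
        zpow_natCast]
      push_cast; ring
    · have e : (2:ℝ) ^ (2 * U + Q) * (2:ℝ) ^ (w * U) = (2:ℝ) ^ ((w + 2) * U + Q) := by
        rw [← zpow_natCast, ← zpow_add₀ (by norm_num : (2:ℝ) ≠ 0)]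
        congr 1; push_cast; ring
      rw [one_div_mul_eq_div]
      exact (hG a b).2.2 h1 (by rw [e]; exact h2.le)
  choose G hG using hwin
  obtain ⟨f, σ, hσ, hf⟩ := embed_from_windows (U := U) (Q := Q) (P := 5 * U + 4 * Q) (R := R)
    (C0 := (C0:ℝ)) (c0 := 1 / (1024 * ℓ)) (B0 := ((24 * I * ℓ : ℕ) : ℝ) * 2 ^ (5 * U + 2 * Q))
    (D1 := D1) (L := L) hp hn X (fun a b => powDist p (Y a) (Y b)) hY hmet hU0
    (by
      have : 1 ≤ C0 := by rw [hC0]; exact Nat.one_le_iff_ne_zero.2 (by simp; omega)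
      exact_mod_cast this)
    (by
      rw [ge_iff_le, div_le_iff₀ (by positivity)]
      linarith)
    (by positivity) G (fun w z z' => (hG w z z').1) (fun w z z' => (hG w z z').2.1)
    (fun w z z' => (hG w z z').2.2)
    (by
      have := small_le_two_pow (show 12 * 1024 * ℓ * C0 ≤ Q by omega)
      push_cast at this
      rw [mul_one_div, le_div_iff₀ (by positivity)]
      linarith)
    (by positivity)
    (by
      calc ((24 * I * ℓ : ℕ) : ℝ) * 2 ^ (5 * U + 2 * Q) ≤ 2 ^ Q * 2 ^ (5 * U + 2 * Q) :=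
            mul_le_mul_of_nonneg_right (small_le_two_pow (by omega)) (by positivity)
        _ ≤ _ := by rw [← pow_add]; exact pow_le_pow_right₀ (by norm_num) (by omega))
    (by
      rw [div_le_iff₀ (by exact_mod_cast hU0), hD1]
      have hQU : (Q:ℝ) ≤ U := by exact_mod_cast (by omega : Q ≤ U)
      have hUR : (1:ℝ) ≤ U := by exact_mod_cast hU0
      have hC : (0:ℝ) ≤ C0 := Nat.cast_nonneg _
      push_cast
      nlinarith [mul_le_mul_of_nonneg_left hlogU hC, mul_le_mul_of_nonneg_left hQU hC])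
    hL hR
  refine ⟨_, ?_, f, σ, hσ, fun i j => ⟨(hf i j).1, ?_⟩⟩
  · simp only [Fintype.card_prod, Fintype.card_fin]
    push_cast
    have hR2 : (R:ℝ) ≤ 50 * (Real.log n + 1) := by
      rw [hRdef]; push_cast
      linarith [Nat.ceil_lt_add_one (show (0:ℝ) ≤ 8 * L by linarith)]
    have h2U : (2:ℝ) ^ U ≤ 2 ^ (Q + 10) * (n:ℝ) ^ (1 / (m:ℝ)) := by
      have hn' : ((2:ℝ) ^ (Nat.log 2 n / m)) ≤ (n:ℝ) ^ (1 / (m:ℝ)) := by
        have h1 : ((2:ℝ) ^ (Nat.log 2 n / m)) ^ (m:ℝ) ≤ n := by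
          rw [Real.rpow_natCast, ← pow_mul]
          have : 2 ^ (Nat.log 2 n / m * m) ≤ n :=
            (Nat.pow_le_pow_right (by norm_num) (Nat.div_mul_le_self _ _)).trans
              (Nat.pow_log_le_self 2 (by omega))
          exact_mod_cast this
        rw [one_div, Real.le_rpow_inv_iff_of_pos (by positivity) hn0.le (by exact_mod_cast hm)]
        exact h1
      calc (2:ℝ) ^ U ≤ 2 ^ (Q + 10 + Nat.log 2 n / m) := by
            refine pow_le_pow_right₀ (by norm_num) ?_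
            rw [hU]
            generalize Nat.log 2 n / m = o
            omega
        _ = 2 ^ (Q + 10) * 2 ^ (Nat.log 2 n / m) := pow_add _ _ _
        _ ≤ _ := mul_le_mul_of_nonneg_left hn' (by positivity)
    have hB2 : (B:ℝ) ≤ ((2:ℝ) ^ (Q + 10)) ^ (4 + 8 * pn) * (n:ℝ) ^ ((((2 + 8 * pn : ℕ)) : ℝ) / m)
        * 2 := by
      have h1 : (B:ℝ) ≤ 2 * ((2:ℝ) ^ U) ^ (2 + 8 * pn) * 2 ^ Q := by
        rw [hB, hs]; push_cast
        rw [← pow_mul, mul_assoc, mul_assoc, ← pow_add, ← pow_add]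
        refine mul_le_mul_of_nonneg_left (pow_le_pow_right₀ (by norm_num) ?_) (by norm_num)
        have : pn * (6 * U + 2 * Q + 10) ≤ pn * (8 * U) := Nat.mul_le_mul_left _ (by omega)
        nlinarith
      refine h1.trans ?_
      have hQ' : (2:ℝ) ^ Q ≤ ((2:ℝ) ^ (Q + 10)) ^ 2 := by
        rw [← pow_mul]; exact pow_le_pow_right₀ (by norm_num) (by omega)
      calc 2 * ((2:ℝ) ^ U) ^ (2 + 8 * pn) * 2 ^ Q
          ≤ 2 * (2 ^ (Q + 10) * (n:ℝ) ^ (1 / (m:ℝ))) ^ (2 + 8 * pn) * (2 ^ (Q + 10)) ^ 2 := by gcongr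
        _ = _ := by
            rw [mul_pow, ← Real.rpow_natCast ((n:ℝ) ^ (1 / (m:ℝ))), ← Real.rpow_mul hn0.le,
              one_div_mul_eq_div, show 4 + 8 * pn = (2 + 8 * pn) + 2 by omega, pow_add]
            ring
    have hl := log_add_one_le (n := n) (by omega) (g := 1 / (m:ℝ)) (by positivity)
    rw [one_div_one_div] at hl
    have hL1 : 0 ≤ 50 * (Real.log n + 1) := by linarith
    calc (R:ℝ) * ((I:ℝ) * ((R:ℝ) * B))
        ≤ 50 * (Real.log n + 1) * ((I:ℝ) * (50 * (Real.log n + 1) *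
          (((2:ℝ) ^ (Q + 10)) ^ (4 + 8 * pn) * (n:ℝ) ^ ((((2 + 8 * pn : ℕ)) : ℝ) / m) * 2))) :=
          mul_le_mul hR2 (mul_le_mul_of_nonneg_left (mul_le_mul hR2 hB2 (Nat.cast_nonneg _) hL1) (Nat.cast_nonneg _))
            (by positivity) hL1
      _ = E * (Real.log n + 1) ^ 2 * (n:ℝ) ^ ((((2 + 8 * pn : ℕ)) : ℝ) / m) := by rw [hE]; ring
      _ ≤ E * (((m:ℝ) + 1) * (n:ℝ) ^ (1 / (m:ℝ))) ^ 2 * (n:ℝ) ^ ((((2 + 8 * pn : ℕ)) : ℝ) / m) := by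
          have hE0 : (0:ℝ) ≤ E := by rw [hE]; positivity
          exact mul_le_mul_of_nonneg_right
            (mul_le_mul_of_nonneg_left (pow_le_pow_left₀ (by linarith) hl 2) hE0) (by positivity)
      _ = _ := by
          rw [mul_pow, ← Real.rpow_natCast ((n:ℝ) ^ (1 / (m:ℝ))) 2, ← Real.rpow_mul hn0.le,
            show (4 + 8 * (pn : ℝ)) / m = 1 / (m:ℝ) * ((2:ℕ) : ℝ) + (((2 + 8 * pn : ℕ)) : ℝ) / m by
              push_cast; ring,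
            Real.rpow_add hn0]
          ring
  · refine (hf i j).2.trans (le_of_eq ?_)
    rw [div_div_eq_mul_div, div_one]

end Vale.Agent.P249

namespace Vale.Agent.Results.P249.SubpolynomialDimension

open Vale.Agent.P249

theorem result (p : ℝ) (hp : 1 ≤ p) (γ : ℝ) (hγ : 0 < γ) :
    ∃ D C : ℝ, 1 ≤ D ∧ 0 < C ∧ ∀ n : ℕ, 2 ≤ n → ∀ (N : ℕ) (X : Fin n → Fin N → ℝ),
      Function.Injective X →
        ∃ d : ℕ, (d : ℝ) ≤ C * (n : ℝ) ^ γ ∧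
          ∃ (f : Fin n → Fin d → ℝ) (s : ℝ), 0 < s ∧ ∀ i j : Fin n,
            s * (∑ k, |X i k - X j k| ^ p) ^ (1 / p) ≤ (∑ k, |f i k - f j k| ^ p) ^ (1 / p) ∧
            (∑ k, |f i k - f j k| ^ p) ^ (1 / p)
              ≤ D * (s * (∑ k, |X i k - X j k| ^ p) ^ (1 / p)) := by
  obtain ⟨m, hm⟩ : ∃ m : ℕ, m = ⌈((4 + 8 * ⌈p⌉₊ : ℕ) : ℝ) / γ⌉₊ + 1 := ⟨_, rfl⟩
  obtain ⟨D, C, hD, hC, h⟩ := embed_any_exponent p hp m ⌈p⌉₊ (by omega) (Nat.le_ceil p)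
  refine ⟨D, C, hD, hC, fun n hn N X hX => ?_⟩
  obtain ⟨d, hd, rest⟩ := h n hn N X hX
  refine ⟨d, hd.trans (mul_le_mul_of_nonneg_left
    (Real.rpow_le_rpow_of_exponent_le (by exact_mod_cast (by omega : 1 ≤ n)) ?_) hC.le), rest⟩
  have hmR : (0:ℝ) < m := by exact_mod_cast (by omega : 0 < m)
  have h1 := Nat.le_ceil (((4 + 8 * ⌈p⌉₊ : ℕ) : ℝ) / γ)
  rw [div_le_iff₀ hmR]
  rw [div_le_iff₀ hγ] at h1
  have h2 : (⌈((4 + 8 * ⌈p⌉₊ : ℕ) : ℝ) / γ⌉₊ : ℝ) ≤ (m:ℝ) := by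
    exact_mod_cast (by omega : ⌈((4 + 8 * ⌈p⌉₊ : ℕ) : ℝ) / γ⌉₊ ≤ m)
  nlinarith

end Vale.Agent.Results.P249.SubpolynomialDimension
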